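import Vale.Agent.P157.Cube2.Main
import Vale.Agent.P157.Rsb.Main

/-!
The limiting pressure of the Gaussian perceptron for every bounded Borel potential and every
density, on the sphere and on the Ising cube, as variational formulas.
-/

namespace Vale.Agent.Results.P157.BothFormula

open Vale.Agent.P157 Vale.Agent.P157.Rsb Vale.Agent.P157.Cube2 MeasureTheory Filter Topology

theorem result : ∀ f : ℝ → ℝ, Measurable f → (∃ L, ∀ u, |f u| ≤ L) → ∀ α : ℝ, 0 < α →
    (∃ l, Tendsto (fun N : ℕ => pressureSphere f α N) atTop (𝓝 l) ∧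
      IsGLB {x | ∃ (k : ℕ) (q : ℕ → ℝ), IsPath k q ∧ q k < 1 ∧ x = entS k q + α * phiK k f q} l) ∧
    (∀ (k : ℕ) (q : ℕ → ℝ), IsPath k q → BddAbove (spinObj k q '' {r | IsVar k r})) ∧
    ∃ l, Tendsto (fun N : ℕ => pressureCube f α N) atTop (𝓝 l) ∧
      IsGLB {x | ∃ (k : ℕ) (q : ℕ → ℝ), IsPath k q ∧ x = spinSup k q + α * phiK k f q} l :=
  fun _ hf hL _ hα => ⟨sphere_main hf hL hα, cube_sup_bdd, cube_main hf hL hα⟩

end Vale.Agent.Results.P157.BothFormula
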